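import Crest.Agent.H2.RP.Ker

/-! Averaging over windows. -/

set_option autoImplicit false

noncomputable section

namespace Crest.Agent.H2.RP

open MeasureTheory Filter Finset

theorem sum_setIntegral_eq {ι : Type*} (s : Finset ι) {ρ : Cir → ℝ} (hρ : Integrable ρ mu)
    {A : ι → Set Cir} (hA : ∀ i, MeasurableSet (A i)) [∀ x : Cir, DecidablePred fun i => x ∈ A i] :
    ∑ i ∈ s, ∫ x in A i, ρ x ∂mu = ∫ x, ((s.filter fun i => x ∈ A i).card : ℝ) * ρ x ∂mu ∧
      Integrable (fun x => ((s.filter fun i => x ∈ A i).card : ℝ) * ρ x) mu := by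
  have e : (fun x => ((s.filter fun i => x ∈ A i).card : ℝ) * ρ x) =
      fun x => ∑ i ∈ s, (A i).indicator ρ x := by
    funext x
    rw [card_filter]; push_cast; rw [sum_mul]
    exact sum_congr rfl fun i _ => by by_cases h : x ∈ A i <;> simp [h]
  rw [e, integral_finset_sum _ fun i _ => hρ.indicator (hA i)]
  exact ⟨sum_congr rfl fun i _ => (integral_indicator (hA i)).symm,
    integrable_finset_sum _ fun i _ => hρ.indicator (hA i)⟩

theorem integrable_of01 {ρ : Cir → ℝ} (hm : Measurable ρ) (h0 : ∀ x, 0 ≤ ρ x) (h1 : ∀ x, ρ x ≤ 1) :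
    Integrable ρ mu :=
  Integrable.of_bound hm.aestronglyMeasurable 1 (Eventually.of_forall fun x => by
    rw [Real.norm_eq_abs, abs_of_nonneg (h0 x)]; exact h1 x)

/-- upper average -/
theorem avg_le {ι : Type*} (s : Finset ι) {ρ : Cir → ℝ} (hm : Measurable ρ) (h0 : ∀ x, 0 ≤ ρ x)
    (h1 : ∀ x, ρ x ≤ 1) {A : ι → Set Cir} (hA : ∀ i, MeasurableSet (A i))
    [∀ x : Cir, DecidablePred fun i => x ∈ A i] {Z : Set Cir} (hZ : MeasurableSet Z) {c : ℝ}
    (hc0 : 0 ≤ c) (hc : ∀ x, x ∉ Z → ((s.filter fun i => x ∈ A i).card : ℝ) ≤ c) :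
    ∑ i ∈ s, ∫ x in A i, ρ x ∂mu ≤ c * ∫ x, ρ x ∂mu + s.card * mu.real Z := by
  have hρ := integrable_of01 hm h0 h1
  obtain ⟨e, hi⟩ := sum_setIntegral_eq s hρ hA
  have i2 : Integrable (fun x => (s.card : ℝ) * Z.indicator (1 : Cir → ℝ) x) mu :=
    ((integrable_const (1 : ℝ)).indicator hZ).const_mul _
  rw [e, ← integral_const_mul, ← integral_indicator_one hZ, ← integral_const_mul,
    ← integral_add (hρ.const_mul _) i2]
  refine integral_mono hi ((hρ.const_mul _).add i2) fun x => ?_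
  by_cases hx : x ∈ Z
  · have h2 : ((s.filter fun i => x ∈ A i).card : ℝ) ≤ s.card := by
      exact_mod_cast card_filter_le _ _
    have h3 := mul_le_mul h2 (h1 x) (h0 x) (Nat.cast_nonneg _)
    have h4 := mul_nonneg hc0 (h0 x)
    simp only [hx, Set.indicator_of_mem, Pi.one_apply]
    linarith
  · simpa [hx] using mul_le_mul_of_nonneg_right (hc x hx) (h0 x)

/-- lower average -/
theorem le_avg {ι : Type*} (s : Finset ι) {ρ : Cir → ℝ} (hm : Measurable ρ) (h0 : ∀ x, 0 ≤ ρ x)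
    (h1 : ∀ x, ρ x ≤ 1) {A : ι → Set Cir} (hA : ∀ i, MeasurableSet (A i))
    [∀ x : Cir, DecidablePred fun i => x ∈ A i] {V Z : Set Cir} (hV : MeasurableSet V)
    (hZ : MeasurableSet Z) {c : ℝ} (hc0 : 0 ≤ c)
    (hc : ∀ x ∈ V, x ∉ Z → c ≤ ((s.filter fun i => x ∈ A i).card : ℝ)) :
    c * (∫ x in V, ρ x ∂mu - mu.real Z) ≤ ∑ i ∈ s, ∫ x in A i, ρ x ∂mu := by
  have hρ := integrable_of01 hm h0 h1
  obtain ⟨e, hi⟩ := sum_setIntegral_eq s hρ hA
  have i1 : Integrable (Z.indicator (1 : Cir → ℝ)) mu := (integrable_const (1 : ℝ)).indicator hZ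
  rw [e, ← integral_indicator hV, ← integral_indicator_one hZ,
    ← integral_sub (hρ.indicator hV) i1, ← integral_const_mul]
  refine integral_mono (((hρ.indicator hV).sub i1).const_mul _) hi fun x => ?_
  have h2 : 0 ≤ ((s.filter fun i => x ∈ A i).card : ℝ) * ρ x :=
    mul_nonneg (Nat.cast_nonneg _) (h0 x)
  by_cases hx : x ∈ Z
  · have h3 : V.indicator ρ x ≤ 1 := by
      by_cases hv : x ∈ V <;> simp [hv, h1 x]
    have : c * (V.indicator ρ x - Z.indicator 1 x) ≤ 0 :=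
      mul_nonpos_of_nonneg_of_nonpos hc0 (by simp [hx, h3])
    exact this.trans h2
  · by_cases hv : x ∈ V
    · simpa [hx, hv] using mul_le_mul_of_nonneg_right (hc x hv hx) (h0 x)
    · simpa [hx, hv] using h2

end Crest.Agent.H2.RP
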