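import Crest.Agent.H2.RP.Mult

/-! One-sided Bessel selection. -/

set_option autoImplicit false

noncomputable section

namespace Crest.Agent.H2.RP

open MeasureTheory Filter Finset

theorem bessel {ρ : Cir → ℝ} (hm : Measurable ρ) (h0 : ∀ x, 0 ≤ ρ x) (h1 : ∀ x, ρ x ≤ 1)
    {N : ℕ} (hN : 0 < N) (V : ℕ → Set Cir) (hV : ∀ j, MeasurableSet (V j))
    (hc : ∀ i < N, ∀ j < N, i ≠ j →
      |mu.real (V i ∩ V j) - mu.real (V i) * mu.real (V j)| ≤ 1 / N)
    {b : ℝ} (hb : 0 < b) (hNb : 2 ≤ N * b ^ 2) :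
    ∃ j < N, (∫ x, ρ x ∂mu) * mu.real (V j) - b ≤ ∫ x in V j, ρ x ∂mu := by
  by_contra hcon
  push Not at hcon
  have hN0 : (0 : ℝ) < N := by exact_mod_cast hN
  set ξ : ℕ → Cir → ℝ := fun j x => (V j).indicator 1 x - mu.real (V j) with hξ
  have hμ1 : ∀ j, mu.real (V j) ≤ 1 := fun j => measureReal_le_one
  have hμ0 : ∀ j, 0 ≤ mu.real (V j) := fun j => measureReal_nonneg
  have hξm : ∀ j, Measurable (ξ j) := fun j => (measurable_one.indicator (hV j)).sub_const _
  have hξb : ∀ j x, |ξ j x| ≤ 1 := fun j x => by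
    have := hμ1 j; have := hμ0 j
    by_cases h : x ∈ V j <;> simp only [hξ, Set.indicator, h, if_true, if_false, Pi.one_apply] <;>
      rw [abs_le] <;> constructor <;> linarith
  have hint : ∀ {f : Cir → ℝ} (C : ℝ), Measurable f → (∀ x, |f x| ≤ C) → Integrable f mu :=
    fun C hf hC => Integrable.of_bound hf.aestronglyMeasurable C (Eventually.of_forall hC)
  have hρb : ∀ x, |ρ x| ≤ 1 := fun x => by rw [abs_of_nonneg (h0 x)]; exact h1 x
  have hρi : Integrable ρ mu := hint 1 hm hρb
  have hmul : ∀ {f g : Cir → ℝ}, Measurable f → Measurable g → (∀ x, |f x| ≤ 1) →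
      (∀ x, |g x| ≤ 1) → Integrable (fun x => f x * g x) mu := fun hf hg h1 h2 =>
    hint 1 (hf.mul hg) fun x => by
      rw [abs_mul]; exact mul_le_one₀ (h1 x) (abs_nonneg _) (h2 x)
  have hi1 : ∀ A : Set Cir, MeasurableSet A → Integrable (A.indicator (1 : Cir → ℝ)) mu :=
    fun A hA => (integrable_const (1 : ℝ)).indicator hA
  have e1 : ∀ j, ∫ x, ρ x * ξ j x ∂mu =
      ∫ x in V j, ρ x ∂mu - (∫ x, ρ x ∂mu) * mu.real (V j) := fun j => by
    have : (fun x => ρ x * ξ j x) = fun x => (V j).indicator ρ x - ρ x * mu.real (V j) := by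
      funext x; by_cases h : x ∈ V j <;> simp [hξ, h, mul_sub]
    rw [this, integral_sub (hρi.indicator (hV j)) (hρi.mul_const _), integral_indicator (hV j),
      integral_mul_const]
  have e2 : ∀ i j, ∫ x, ξ i x * ξ j x ∂mu =
      mu.real (V i ∩ V j) - mu.real (V i) * mu.real (V j) := fun i j => by
    have : (fun x => ξ i x * ξ j x) = fun x => ((V i ∩ V j).indicator 1 x -
        (V i).indicator 1 x * mu.real (V j)) - ((V j).indicator 1 x * mu.real (V i) -
          mu.real (V i) * mu.real (V j)) := by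
      funext x
      by_cases h : x ∈ V i <;> by_cases h' : x ∈ V j <;> simp [hξ, h, h'] <;> ring
    have i1 : Integrable (fun x => (V i ∩ V j).indicator (1 : Cir → ℝ) x -
        (V i).indicator 1 x * mu.real (V j)) mu :=
      (hi1 _ ((hV i).inter (hV j))).sub ((hi1 _ (hV i)).mul_const _)
    have i2 : Integrable (fun x => (V j).indicator (1 : Cir → ℝ) x * mu.real (V i) -
        mu.real (V i) * mu.real (V j)) mu :=
      ((hi1 _ (hV j)).mul_const _).sub (integrable_const _)
    rw [this, integral_sub i1 i2,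
      integral_sub (hi1 _ ((hV i).inter (hV j))) ((hi1 _ (hV i)).mul_const _),
      integral_sub ((hi1 _ (hV j)).mul_const _) (integrable_const _), integral_mul_const,
      integral_mul_const, integral_indicator_one ((hV i).inter (hV j)),
      integral_indicator_one (hV i), integral_indicator_one (hV j), integral_const]
    simp; ring
  set g : Cir → ℝ := fun x => ∑ j ∈ range N, ξ j x with hg
  have e3 : ∫ x, ρ x * g x ∂mu < -(N * b) := by
    have : (fun x => ρ x * g x) = fun x => ∑ j ∈ range N, ρ x * ξ j x := by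
      funext x; rw [hg, mul_sum]
    rw [this, integral_finset_sum _ fun j _ => hmul hm (hξm j) hρb (hξb j)]
    have h2 : ∑ j ∈ range N, ∫ x, ρ x * ξ j x ∂mu < ∑ j ∈ range N, -b :=
      sum_lt_sum_of_nonempty (nonempty_range_iff.2 hN.ne') fun j hj => by
        rw [e1]; linarith [hcon j (mem_range.1 hj)]
    simpa using h2
  have e4 : ∫ x, g x * g x ∂mu ≤ 2 * N := by
    have : (fun x => g x * g x) = fun x => ∑ i ∈ range N, ∑ j ∈ range N, ξ i x * ξ j x := by
      funext x; rw [hg, sum_mul_sum]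
    rw [this, integral_finset_sum _ fun i _ => integrable_finset_sum _ fun j _ =>
      hmul (hξm i) (hξm j) (hξb i) (hξb j)]
    have h2 : ∀ i ∈ range N, ∫ x, ∑ j ∈ range N, ξ i x * ξ j x ∂mu ≤ 2 := fun i hi => by
      rw [integral_finset_sum _ fun j _ => hmul (hξm i) (hξm j) (hξb i) (hξb j)]
      have h3 : ∀ j ∈ range N, ∫ x, ξ i x * ξ j x ∂mu ≤ (if j = i then 1 else 0) + 1 / N :=
        fun j hj => by
          rw [e2]
          split_ifs with h
          · have := measureReal_le_one (μ := mu) (s := V i ∩ V j)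
            have := mul_nonneg (hμ0 i) (hμ0 j)
            have : (0 : ℝ) ≤ 1 / N := by positivity
            linarith
          · have := hc i (mem_range.1 hi) j (mem_range.1 hj) (Ne.symm h)
            linarith [le_abs_self (mu.real (V i ∩ V j) - mu.real (V i) * mu.real (V j))]
      refine (sum_le_sum h3).trans (le_of_eq ?_)
      rw [sum_add_distrib, sum_ite_eq' , if_pos hi, sum_const, card_range, nsmul_eq_mul]
      field_simp; norm_num
    refine (sum_le_sum h2).trans (le_of_eq ?_)
    simp [mul_comm]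
  have hgm : Measurable g := Finset.measurable_sum _ fun j _ => hξm j
  have hgb : ∀ x, |g x| ≤ N := fun x =>
    (abs_sum_le_sum_abs _ _).trans ((sum_le_sum fun j _ => hξb j x).trans (by simp))
  have hi2 : Integrable (fun x => ρ x * g x) mu := hint N (hm.mul hgm) fun x => by
    rw [abs_mul]; nlinarith [hρb x, hgb x, abs_nonneg (ρ x), abs_nonneg (g x)]
  have hi3 : Integrable (fun x => g x * g x) mu := hint (N * N) (hgm.mul hgm) fun x => by
    rw [abs_mul]; exact mul_le_mul (hgb x) (hgb x) (abs_nonneg _) hN0.le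
  have e5 : ∫ x, (-(1 / b) - b / 4 * (g x * g x)) ∂mu ≤ ∫ x, ρ x * g x ∂mu := by
    refine integral_mono ((integrable_const _).sub (hi3.const_mul _)) hi2 fun x => ?_
    have h2 : ρ x * ρ x ≤ 1 := mul_le_one₀ (h1 x) (h0 x) (h1 x)
    have h3 : 0 ≤ (ρ x + b / 2 * g x) ^ 2 / b := by positivity
    have h4 : (ρ x + b / 2 * g x) ^ 2 / b = ρ x * ρ x / b + ρ x * g x + b / 4 * (g x * g x) := by
      field_simp; ring
    have h5 : ρ x * ρ x / b ≤ 1 / b := div_le_div_of_nonneg_right h2 hb.le
    show -(1 / b) - b / 4 * (g x * g x) ≤ ρ x * g x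
    linarith
  rw [integral_sub (integrable_const _) (hi3.const_mul _), integral_const_mul, integral_const] at e5
  simp only [probReal_univ, smul_eq_mul, one_mul] at e5
  have h6 : 1 / b ≤ N * b / 2 := by
    rw [div_le_iff₀ hb]; nlinarith
  nlinarith

end Crest.Agent.H2.RP
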